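import Vale.Agent.P248.Block2

/-!
P248 (Mahler conjectures): bodies invariant under sign changes that are even in blocks, and classes
with the sharp constant, in every dimension.
-/

namespace Vale.Agent.Results.P248.Blocks

open Vale.Agent.P248 MeasureTheory

theorem result :
    (∀ (n : ℕ) (β : Fin n → ℕ) (A : Finset ℕ) (K : Set (Fin n → ℝ)), Body K →
      (∀ a ∈ A, 2 ≤ bsize β a) → BlockInv β A K →
      (∏ a ∈ A, (1 - 1 / (bsize β a : ℝ))) * ((4 : ℝ) ^ n / (n.factorial : ℝ)) ≤ volProd K) ∧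
    (∀ (n : ℕ) (β : Fin n → ℕ) (A : Finset ℕ) (K : Set (Fin n → ℝ)), Body K →
      (∀ a ∈ A, 3 ≤ bsize β a) → BlockInv β A K →
      ((n : ℝ) + 1) ^ (n + 1) / ((n.factorial : ℝ)) ^ 2 ≤ volProd K ∧
      (4 ≤ n → ((n : ℝ) + 1) ^ (n + 1) / ((n.factorial : ℝ)) ^ 2 < volProd K)) ∧
    (∀ (n : ℕ) (K : Set (Fin n → ℝ)), 2 ≤ n → Body K → EvenInv K →
      (1 - 1 / (n : ℝ)) * ((4 : ℝ) ^ n / (n.factorial : ℝ)) ≤ volProd K) ∧
    (∀ (n : ℕ) (K : Set (Fin n → ℝ)), 2 ≤ n → Body K → EvenInv K →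
      (∃ t : Fin n → ℤˣ, ∏ i, t i = -1 ∧ volume (K ∩ orth t) = volume (K ∩ orth 1)) →
      (4 : ℝ) ^ n / (n.factorial : ℝ) ≤ volProd K) ∧
    (∀ (n : ℕ) (K : Set (Fin n → ℝ)), 2 ≤ n → Body K → EvenInv K →
      (∃ (π : Equiv.Perm (Fin n)) (t : Fin n → ℤˣ), ∏ i, t i = -1 ∧
        ∀ x ∈ K, sgn t (x ∘ π) ∈ K) →
      (4 : ℝ) ^ n / (n.factorial : ℝ) ≤ volProd K) ∧
    (∀ (n : ℕ) (K : Set (Fin n → ℝ)), Body K →
      (∃ p : Fin n → Fin n, (∀ i, p (p i) = i) ∧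
        (∀ i, p i ≠ i → ∀ x ∈ K, turn i (p i) x ∈ K) ∧
        (∀ i, p i = i → ∀ x ∈ K, Function.update x i (-x i) ∈ K)) →
      (4 : ℝ) ^ n / (n.factorial : ℝ) ≤ volProd K) ∧
    (∀ (n : ℕ) (K : Set (Fin n → ℝ)), Body K → (∀ x ∈ K, -x ∈ K) → Equi K →
      (4 : ℝ) ^ n / (n.factorial : ℝ) ≤ volProd K) := by
  refine ⟨fun _ _ _ _ hK hB hs => final_block hK hs fun _ hi => hB _ hi,
    fun _ _ _ _ hK hB hs =>
      ⟨final_block_mahler hK hs hB, fun hn => final_block_mahler_lt hn hK hs hB⟩,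
    fun _ _ hn hK hs => final_even_sharp hn hK hs,
    fun _ _ hn hK hs h => final_vol hn hK hs h, fun _ _ hn hK hs h => final_even hn hK hs h,
    fun _ _ hK h => ?_, fun _ _ hK hs he => final_sym hK hs he⟩
  obtain ⟨p, hp, hq, hf⟩ := h
  exact final_quarter hK p hp hq hf

end Vale.Agent.Results.P248.Blocks
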