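import Vale.Agent.P248.Final2

/-!
P248 (Mahler conjectures): all convex bodies invariant under even sign changes of the coordinates,
and equipartitioned bodies, in every dimension.
-/

namespace Vale.Agent.Results.P248.EvenSharp

open Vale.Agent.P248 MeasureTheory

theorem result :
    (∀ (n : ℕ) (K : Set (Fin n → ℝ)), 2 ≤ n → Body K → EvenInv K →
      ((n : ℝ) - 1) / n * ((4 : ℝ) ^ n / (n.factorial : ℝ)) ≤ volProd K ∧
      (3 ≤ n → ((n : ℝ) + 1) ^ (n + 1) / ((n.factorial : ℝ)) ^ 2 ≤ volProd K) ∧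
      (4 ≤ n → ((n : ℝ) + 1) ^ (n + 1) / ((n.factorial : ℝ)) ^ 2 < volProd K)) ∧
    (∀ (n : ℕ) (K : Set (Fin n → ℝ)), 2 ≤ n → Body K → EvenInv K →
      (∃ t : Fin n → ℤˣ, ∏ i, t i = -1 ∧ volume (K ∩ orth t) = volume (K ∩ orth 1)) →
      (4 : ℝ) ^ n / (n.factorial : ℝ) ≤ volProd K) ∧
    (∀ (n : ℕ) (K : Set (Fin n → ℝ)), 2 ≤ n → Body K → EvenInv K →
      (∃ (π : Equiv.Perm (Fin n)) (t : Fin n → ℤˣ), ∏ i, t i = -1 ∧
        ∀ x ∈ K, sgn t (x ∘ π) ∈ K) →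
      (4 : ℝ) ^ n / (n.factorial : ℝ) ≤ volProd K) ∧
    (∀ (n : ℕ) (K : Set (Fin n → ℝ)), Body K →
      (∃ p : Fin n → Fin n, (∀ i, p (p i) = i) ∧
        (∀ i, p i ≠ i → ∀ x ∈ K, turn i (p i) x ∈ K) ∧
        (∀ i, p i = i → ∀ x ∈ K, Function.update x i (-x i) ∈ K)) →
      (4 : ℝ) ^ n / (n.factorial : ℝ) ≤ volProd K) ∧
    (∀ (n : ℕ) (K : Set (Fin n → ℝ)), Body K → (∀ x ∈ K, -x ∈ K) → Equi K →
      (4 : ℝ) ^ n / (n.factorial : ℝ) ≤ volProd K) := by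
  refine ⟨fun n K hn hK hs => ⟨final_sharp hn hK hs, fun h => final_Q2 h hK hs,
      fun h => lt_of_lt_of_le (num2 h) (final_sharp hn hK hs)⟩,
    fun n K hn hK hs h => final_vol hn hK hs h, fun n K hn hK hs h => final_even hn hK hs h,
    fun n K hK h => ?_, fun n K hK hs he => final_sym hK hs he⟩
  obtain ⟨p, hp, hq, hf⟩ := h
  exact final_quarter hK p hp hq hf

end Vale.Agent.Results.P248.EvenSharp
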